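import Mathlib

/-!
# Inner actions are cocycle conjugate to their amplification

Let `A`, `D`, `T` be unital C*-algebras, `T` generated by commuting images of `A` and `D`
(for instance `T = A ⊗ D`), and let `γ` act on `T` as `α ⊗ id` on elementary tensors.
If `α g = Ad (u g)` for unitaries `u g` forming a projective representation and `A ≅ T`,
then `α` and `γ` are cocycle conjugate.
-/

namespace Vale.Agent.Lib.P095

variable {G : Type*} {A D T : Type*} [CStarAlgebra A] [CStarAlgebra D] [CStarAlgebra T]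

theorem inner_tensor_action_eq
    (ιA : A →⋆ₐ[ℂ] T) (ιD : D →⋆ₐ[ℂ] T)
    (hcomm : ∀ a d, ιA a * ιD d = ιD d * ιA a)
    (hdense : (Submodule.span ℂ (Set.range fun p : A × D => ιA p.1 * ιD p.2)).topologicalClosure = ⊤)
    (α : G → (A ≃⋆ₐ[ℂ] A)) (γ : G → (T ≃⋆ₐ[ℂ] T))
    (hγ : ∀ g a d, γ g (ιA a * ιD d) = ιA (α g a) * ιD d)
    (u : G → unitary A)
    (hα : ∀ g a, α g a = u g * a * star (u g : A)) (g : G) (t : T) :
    γ g t = ιA (u g) * t * star (ιA (u g)) := by
  have hcont1 : Continuous (γ g) := (StarAlgEquiv.isometry (γ g)).continuous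
  have hcont2 : Continuous fun t : T => ιA (u g) * t * star (ιA (u g)) := by fun_prop
  have hclosed : IsClosed {t : T | γ g t = ιA (u g) * t * star (ιA (u g))} :=
    isClosed_eq hcont1 hcont2
  have hspan : (Submodule.span ℂ (Set.range fun p : A × D => ιA p.1 * ιD p.2) : Set T) ⊆
      {t : T | γ g t = ιA (u g) * t * star (ιA (u g))} := by
    intro t ht
    induction ht using Submodule.span_induction with
    | mem x hx =>
      obtain ⟨⟨a, d⟩, rfl⟩ := hx
      change γ g (ιA a * ιD d) = ιA (u g) * (ιA a * ιD d) * star (ιA (u g))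
      rw [hγ, hα]
      calc ιA ((u g : A) * a * star (u g : A)) * ιD d
          = ιA (u g) * ιA a * (ιA (star (u g : A)) * ιD d) := by simp only [map_mul, mul_assoc]
        _ = ιA (u g) * ιA a * (ιD d * ιA (star (u g : A))) := by rw [hcomm]
        _ = ιA (u g) * (ιA a * ιD d) * star (ιA (u g)) := by simp only [map_star, mul_assoc]
    | zero => simp
    | add x y _ _ hx hy =>
      change γ g x = _ at hx
      change γ g y = _ at hy
      change γ g (x + y) = ιA (u g) * (x + y) * star (ιA (u g))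
      rw [map_add, hx, hy, mul_add, add_mul]
    | smul c x _ hx =>
      change γ g x = _ at hx
      change γ g (c • x) = ιA (u g) * (c • x) * star (ιA (u g))
      rw [map_smul, hx, mul_smul_comm, smul_mul_assoc]
  have hmem : t ∈ (Submodule.span ℂ (Set.range fun p : A × D => ιA p.1 * ιD p.2)).topologicalClosure := by
    rw [hdense]; trivial
  exact closure_minimal hspan hclosed hmem


theorem inner_cocycle_conj [Mul G]
    (ιA : A →⋆ₐ[ℂ] T) (ιD : D →⋆ₐ[ℂ] T)
    (hcomm : ∀ a d, ιA a * ιD d = ιD d * ιA a)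
    (hdense : (Submodule.span ℂ (Set.range fun p : A × D => ιA p.1 * ιD p.2)).topologicalClosure = ⊤)
    (Φ : A ≃⋆ₐ[ℂ] T)
    (α : G → (A ≃⋆ₐ[ℂ] A)) (γ : G → (T ≃⋆ₐ[ℂ] T))
    (hγ : ∀ g a d, γ g (ιA a * ιD d) = ιA (α g a) * ιD d)
    (u : G → unitary A) (hu : ∀ g h, ∃ c : ℂ, (u g : A) * u h = c • (u (g * h) : A))
    (hα : ∀ g a, α g a = u g * a * star (u g : A)) :
    ∃ w : G → unitary T, (∀ g h, (w (g * h) : T) = w g * γ g (w h)) ∧
      ∀ g a, Φ (α g a) = w g * γ g (Φ a) * star (w g : T) := by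
  have hγ' := inner_tensor_action_eq ιA ιD hcomm hdense α γ hγ u hα
  have hv : ∀ g, ιA (u g) ∈ unitary T := fun g => Unitary.map_mem ιA (u g).2
  have hΦu : ∀ g, Φ (u g) ∈ unitary T := fun g => Unitary.map_mem Φ (u g).2
  refine ⟨fun g => ⟨Φ (u g) * star (ιA (u g)),
    mul_mem (hΦu g) (Unitary.star_mem (hv g))⟩, ?_, ?_⟩
  · intro g h
    obtain ⟨c, hc⟩ := hu g h
    have h1 : ∀ x : T, star (ιA (u g)) * (ιA (u g) * x) = x := fun x => by
      rw [← mul_assoc, Unitary.star_mul_self_of_mem (hv g), one_mul]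
    have hPP : Φ (u g) * Φ (u h) = c • Φ (u (g * h)) := by
      rw [← map_mul, hc, map_smul]
    have hVV : star (ιA (u h)) * star (ιA (u g)) = (starRingEnd ℂ c) • star (ιA (u (g * h))) := by
      rw [← star_mul, ← map_mul, hc, map_smul, star_smul]
      rfl
    have hcc : ∀ x : T, (c * starRingEnd ℂ c) • x = x := by
      intro x
      have e1 : star ((u g : A) * (u h : A)) * ((u g : A) * (u h : A)) = 1 :=
        Unitary.star_mul_self_of_mem (mul_mem (u g).2 (u h).2)
      rw [hc, star_smul, smul_mul_smul_comm, Unitary.star_mul_self_of_mem (u (g * h)).2] at e1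
      have e2 := congrArg ιA e1
      rw [map_smul, map_one] at e2
      have e3 : (c * starRingEnd ℂ c) • (1 : T) = 1 := by
        rw [mul_comm]; exact e2
      calc (c * starRingEnd ℂ c) • x = ((c * starRingEnd ℂ c) • (1 : T)) * x := by
            rw [smul_mul_assoc, one_mul]
        _ = x := by rw [e3, one_mul]
    change Φ (u (g * h)) * star (ιA (u (g * h)))
      = (Φ (u g) * star (ιA (u g))) * γ g (Φ (u h) * star (ιA (u h)))
    rw [hγ']
    calc Φ (u (g * h)) * star (ιA (u (g * h)))
        = (c * starRingEnd ℂ c) • (Φ (u (g * h)) * star (ιA (u (g * h)))) := (hcc _).symm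
      _ = (c • Φ (u (g * h))) * (starRingEnd ℂ c • star (ιA (u (g * h)))) := by
          rw [smul_mul_smul_comm]
      _ = Φ (u g) * Φ (u h) * (star (ιA (u h)) * star (ιA (u g))) := by rw [hPP, hVV]
      _ = (Φ (u g) * star (ιA (u g))) *
            (ιA (u g) * (Φ (u h) * star (ιA (u h))) * star (ιA (u g))) := by
          simp only [mul_assoc, h1]
  · intro g a
    have h1 : ∀ x : T, star (ιA (u g)) * (ιA (u g) * x) = x := fun x => by
      rw [← mul_assoc, Unitary.star_mul_self_of_mem (hv g), one_mul]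
    change Φ (α g a) = (Φ (u g) * star (ιA (u g))) * γ g (Φ a) * star (Φ (u g) * star (ιA (u g)))
    rw [hγ', hα]
    simp only [map_mul, map_star, star_mul, star_star, mul_assoc, h1]

end Vale.Agent.Lib.P095
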